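import Vale.Agent.Lib.P196.helper45.Main

namespace Vale.Agent.Results.P196.LocallyElementaryAmenable

open Vale.Agent.Lib.P196

universe u

/-- A finitely presented simple group that is locally embeddable into elementary amenable groups
is finite.  Hence an infinite finitely presented simple amenable group, if one exists, is not
locally embeddable into elementary amenable groups (in particular it is neither elementary
amenable nor LEF). -/
theorem result (G : Type u) [Group G] [Group.IsFinitelyPresented G] [IsSimpleGroup G]
    (h : LocallyEmbeddableInto ElemAmenable G) : Finite G :=
  finite_of_locallyEmbeddable_elemAmenable G h

end Vale.Agent.Results.P196.LocallyElementaryAmenable
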